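import Vale.Agent.P022D.Sel.Defs

/-!
# P022, dihedral case, block Twq: the choice of the auxiliary primes (statements)
-/

set_option linter.all false

noncomputable section

namespace Vale.Agent.P022D.Twq

open NumberField IsLocalRing
open Vale.Agent.P022 Vale.Agent.P022D.Sel
open Vale.Agent.P027M.S (Inert mx)

/-- the discriminant of the characteristic polynomial -/
def disc {R : Type} [CommRing R] (A : M2 R) : R := A.trace ^ 2 - 4 * A.det

/-- a lift `ρ` of `ρb` over a local ring `R` generated by the traces, with a point `x` -/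
structure Lv {F O R : Type} [Field F] [CommRing O] [CommRing R] [Algebra O R] [IsLocalRing R]
    (red : O →+* F) (lb : R →+* F) (x : R →+* O) (ρ : GQ →* M2 R) (ρb : GQ →* GL (Fin 2) F)
    (T : Finset ℕ) : Prop where
  unit : ∀ c : O, red c ≠ 0 → IsUnit c
  ker : ∀ z, lb z = 0 ↔ z ∈ maximalIdeal R
  comp : ∀ z, red (x z) = lb z
  lift : ∀ g, mx ρb g = (ρ g).map lb
  cont : ∀ k : ℕ, ∃ U : Subgroup GQ, IsOpen (U : Set GQ) ∧
    ∀ u ∈ U, ∀ i j, (ρ u - 1) i j ∈ maximalIdeal R ^ k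
  unr : ∀ l : ℕ, l.Prime → l ∉ T → ∀ P : Ideal (𝓞 Qb), P.IsPrime → (l : 𝓞 Qb) ∈ P →
    ∀ u, Inert P u → ρ u = 1
  gen : ∀ z : R, ∃ y ∈ Algebra.adjoin O (Set.range fun g => (ρ g).trace),
    z - y ∈ maximalIdeal R ^ 2

/-- a prime of characteristic two and dimension at least two, the determinant has finite order -/
structure BigP {F O R : Type} [Field F] [CommRing O] [CommRing R] [Algebra O R]
    (red : O →+* F) (ρ : GQ →* M2 R) (p : Ideal R) : Prop where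
  prime : p.IsPrime
  res : ∀ c : O, red c = 0 → algebraMap O R c ∈ p
  dim : 2 ≤ ringKrullDim (R ⧸ p)
  det : ∀ g, ∃ n : ℕ, 0 < n ∧ (ρ g).det ^ n - 1 ∈ p

/-- `q` is an auxiliary prime of level `n` for the discriminant `δ` -/
structure Good {F R : Type} [Field F] [CommRing R] [IsLocalRing R] (ρ : GQ →* M2 R)
    (ρb : GQ →* GL (Fin 2) F) (n : ℕ) (δ : R) (q : ℕ) : Prop where
  prime : q.Prime
  one : 2 ^ n ∣ q - 1
  two : ∃ z : ZMod q, z ^ 2 ^ n = 2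
  reg : ∀ φ, IsFrob q φ → ¬ Sc ρb φ
  dq : ∀ φ, IsFrob q φ → ∃ u : Rˣ,
    (q : R) * (ρ φ).trace ^ 2 - ((q : R) + 1) ^ 2 * (ρ φ).det - u * δ ∈ maximalIdeal R ^ n

/-- **The output of the block.** -/
def TWQ : Prop := ∀ (F O R : Type) [Field F] [Finite F] [CharP F 2] [CommRing O] [IsDomain O]
  [CharZero O] [CommRing R] [Algebra O R] [IsLocalRing R] [IsNoetherianRing R]
  [IsAdicComplete (maximalIdeal R) R] (red : O →+* F) (lb : R →+* F) (x : R →+* O)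
  (ρ : GQ →* M2 R) (ρb : GQ →* GL (Fin 2) F) (H : Subgroup GQ) (T : Finset ℕ) (D : ℕ → Set GQ)
  (Ps : Set (Ideal R)), Dh ρb H → 0 ∈ T → 2 ∈ T → (∀ l ∈ T, IsDec l (D l)) →
  Lv red lb x ρ ρb T → Ps.Finite → (∀ p ∈ Ps, BigP red ρ p) →
  ∃ (r : ℕ) (δ : Fin r → R), (∀ i, x (δ i) ≠ 0 ∧ ∀ p ∈ Ps, δ i ∉ p) ∧
    ∀ (n : ℕ) (A : Finset ℕ), ∃ q : Fin r → ℕ, Function.Injective q ∧
      Tan ρb T (Finset.univ.image q) D (2 * r + 5) ∧
      ∀ i, q i ∉ A ∧ q i ∉ T ∧ Good ρ ρb n (δ i) (q i)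

/-- Clifford theory: from one coset to all elements outside `H`. -/
def CLF : Prop := ∀ (F B : Type) [Field F] [CharP F 2] [CommRing B] [IsDomain B] [CharP B 2]
  [IsLocalRing B] [IsNoetherianRing B] [IsAdicComplete (maximalIdeal B) B] (lb : B →+* F)
  (ρ : GQ →* M2 B) (ρb : GQ →* GL (Fin 2) F) (H U : Subgroup GQ) (σ : GQ), Dh ρb H →
  (∀ z, lb z = 0 ↔ z ∈ maximalIdeal B) → (∀ g, mx ρb g = (ρ g).map lb) →
  (∀ k : ℕ, ∃ V : Subgroup GQ, IsOpen (V : Set GQ) ∧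
    ∀ u ∈ V, ∀ i j, (ρ u - 1) i j ∈ maximalIdeal B ^ k) →
  IsOpen (U : Set GQ) → U.Normal → σ ∈ Ginf → σ ∉ H →
  (∀ u ∈ U, u ∈ Ginf → (ρ (σ * u)).trace = 0) → ∀ g ∉ H, (ρ g).trace = 0

/-- The dihedral locus is small. -/
def NDH : Prop := ∀ (F O R : Type) [Field F] [Finite F] [CharP F 2] [CommRing O]
  [CommRing R] [Algebra O R] [IsLocalRing R] [IsNoetherianRing R]
  [IsAdicComplete (maximalIdeal R) R] (red : O →+* F) (lb : R →+* F) (x : R →+* O)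
  (ρ : GQ →* M2 R) (ρb : GQ →* GL (Fin 2) F) (H : Subgroup GQ) (T : Finset ℕ) (p : Ideal R),
  Dh ρb H → Lv red lb x ρ ρb T → BigP red ρ p → ∃ g ∉ H, (ρ g).trace ∉ p

end Vale.Agent.P022D.Twq
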