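import Vale.Agent.P022D.Dh.Ndh
import Vale.Agent.P022D.Good.Avoid
import Vale.Agent.P022D.Sel.All
import Vale.Agent.P022.H20.L3.Fin3

/-!
# P022, dihedral case, block Twq: the choice of the auxiliary primes
-/

set_option linter.all false

noncomputable section

namespace Vale.Agent.P022D.Twq

open NumberField IsLocalRing Matrix
open Vale.Agent.P022 Vale.Agent.P022D.Sel
open Vale.Agent.P027M.S (Inert mx)

namespace Mn

theorem inj {r : ℕ} (P : Fin r → ℕ → Prop) (h : ∀ i (A : Finset ℕ), ∃ q ∉ A, P i q) :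
    ∃ q : Fin r → ℕ, Function.Injective q ∧ ∀ i, P i (q i) := by
  induction r with
  | zero => exact ⟨Fin.elim0, fun i => i.elim0, fun i => i.elim0⟩
  | succ r ih =>
    obtain ⟨q, hq, h1⟩ := ih (fun i => P i.succ) fun i => h i.succ
    obtain ⟨q0, h0, h2⟩ := h 0 (Finset.univ.image q)
    refine ⟨Fin.cons q0 q, Fin.cons_injective_iff.2 ⟨?_, hq⟩, fun i => Fin.cases h2 h1 i⟩
    rintro ⟨i, rfl⟩
    exact h0 (Finset.mem_image_of_mem _ (Finset.mem_univ i))

theorem pow_lin {R : Type} [CommRing R] (A : M2 R) (m : ℕ) :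
    ∃ s c : R, A ^ m = s • A + c • (1 : M2 R) := by
  induction m with
  | zero => exact ⟨0, 1, by simp⟩
  | succ m ih =>
    obtain ⟨s, c, h⟩ := ih
    refine ⟨s * A.trace + c, -(s * A.det), ?_⟩
    rw [pow_succ, h]
    ext i j
    fin_cases i <;> fin_cases j <;>
      simp [Matrix.mul_apply, Fin.sum_univ_two, trace_fin_two, det_fin_two] <;> ring

theorem sc_conj {F : Type} [Field F] {ρ : GQ →* GL (Fin 2) F} {g g' c : GQ}
    (h : ρ g' = (ρ c)⁻¹ * ρ g * ρ c) (hs : Sc ρ g) : Sc ρ g' := by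
  have h1 : mx ρ g = mx ρ g 0 0 • (1 : M2 F) := by
    ext i j
    fin_cases i <;> fin_cases j <;> simp [hs.1, hs.2.1, hs.2.2]
  have h2 : mx ρ g' = mx ρ g 0 0 • (1 : M2 F) := by
    rw [mx, h, Units.val_mul, Units.val_mul, show ((ρ g : GL (Fin 2) F) : M2 F) = mx ρ g from rfl,
      h1, Matrix.mul_smul, Matrix.mul_one, Matrix.smul_mul, Units.inv_mul]
    simp
  refine ⟨?_, ?_, ?_⟩ <;> rw [h2] <;> simp

end Mn

open Mn in
/-- **the auxiliary primes** -/
theorem twq : TWQ := by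
  intro F O R _ _ _ _ _ _ _ _ _ _ _ red lb x ρ ρb H T D Ps hD h0 h2 hdec hL hfin hP
  classical
  obtain ⟨r, σ, U, A0, hU, hn, hU1, hTA, hσ, hsel⟩ := selC F ρb H T D hD h0 h2 hdec
  let r' : GQ →* GL (Fin 2) R := ρ.toHomUnits
  have hr : ∀ g, mx ρb g = (r' g : M2 R).map lb := hL.lift
  have hc : Good.Cont r' (maximalIdeal R) := hL.cont
  have hav := fun i => Good.avoid lb r' hD hr _ hc (insert (RingHom.ker x) hfin.toFinset)
    (fun p hp => by
      rcases Finset.mem_insert.1 hp with rfl | hp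
      · refine ⟨RingHom.ker_isPrime x, fun z hz => ?_, fun h => ?_⟩
        · rw [← hL.comp, RingHom.mem_ker.1 hz, map_zero]
        · rw [RingHom.mem_ker, map_ofNat] at h
          exact absurd h two_ne_zero
      · have hp := hP p (hfin.mem_toFinset.1 hp)
        exact ⟨hp.prime, fun z hz => (hL.ker z).2 (le_maximalIdeal hp.prime.ne_top hz),
          fun _ => Dh.ndh F O R red lb x ρ ρb H T p hD hL hp⟩)
    (fun p _ => Good.closed_of_noeth p) hU hn hU1 (hσ i).1 (hσ i).2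
  choose u hu hu' hδ using hav
  refine ⟨r, fun i => Good.disc (ρ (σ i * u i)), fun i => ⟨hδ i _ (Finset.mem_insert_self _ _),
    fun p hp => hδ i p (Finset.mem_insert_of_mem (hfin.mem_toFinset.2 hp))⟩, fun n A => ?_⟩
  obtain ⟨V, hV, hcong⟩ := cong n
  obtain ⟨q, hq, hA⟩ := inj (fun i q => Aux ρb (U ⊓ V ⊓ Good.Kc r' (maximalIdeal R ^ n)) (A ∪ A0)
    (σ i * u i) q) fun i B => by
      obtain ⟨q, a1, a2, a3⟩ := auxC F ρb H hD (U ⊓ V ⊓ Good.Kc r' (maximalIdeal R ^ n))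
        (A ∪ A0 ∪ B) (σ i * u i) ((hU.inter hV).inter (hc.isOpen n))
        (by rw [Good.sc_mul (hU1 _ (hu i))]; exact (hσ i).2)
      exact ⟨q, fun h => a2 (Finset.mem_union_right _ h), a1,
        fun h => a2 (Finset.mem_union_left _ h), a3⟩
  refine ⟨q, hq, hsel q hq fun i => ?_, fun i => ?_⟩
  · obtain ⟨a1, a2, φ, m, a3, a4, a5, a6⟩ := hA i
    refine ⟨a1, fun h => a2 (Finset.mem_union_right _ h), φ, m, a3, a4, ?_, a6⟩
    have e1 : (QuotientGroup.mk' U) (u i) = 1 := (QuotientGroup.eq_one_iff _).2 (hu i)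
    have e2 := (QuotientGroup.eq_one_iff (N := U) _).2 a5.1.1
    rw [← QuotientGroup.eq_one_iff]
    change QuotientGroup.mk' U _ = 1 at e2 ⊢
    rwa [map_mul, map_pow, map_mul, e1, mul_one, ← map_pow, ← map_mul] at e2
  obtain ⟨a1, a2, φ, m, a3, a4, a5, a6⟩ := hA i
  have hT : q i ∉ T := fun h => a2 (Finset.mem_union_right _ (hTA h))
  obtain ⟨c1, c2⟩ := hcong (q i) m _ φ a1 (fun h => hT (h ▸ h2))
    (Ginf.mul_mem (hσ i).1 (hu' i)) a3 a5.1.2
  have cj : ∀ φ', IsFrob (q i) φ' → ∃ c : GQ, r' φ = (r' c)⁻¹ * r' φ' * r' c := fun φ' h => by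
    obtain ⟨c, hc⟩ := H20.frob_conj r' a1 (fun P hP hl g hg =>
      Units.ext (hL.unr _ a1 hT P hP hl g hg)) h a3
    exact ⟨c⁻¹, by rw [hc, map_inv, inv_inv]⟩
  have rb : ∀ g, ρb g = Units.map (lb.mapMatrix (m := Fin 2)).toMonoidHom (r' g) := fun g =>
    Units.ext (hr g)
  refine ⟨fun h => a2 (Finset.mem_union_left _ h), hT, a1, c1, c2, fun φ' h hs => ?_,
    fun φ' h => ?_⟩
  · obtain ⟨c, hc⟩ := cj φ' h
    exact a6 (sc_conj (c := c) (by rw [rb, rb, rb, hc, map_mul, map_mul, map_inv]) hs)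
  obtain ⟨c, hc⟩ := cj φ' h
  have t1 : (ρ φ').trace = (ρ φ).trace := by
    have := congrArg (fun z : GL (Fin 2) R => (z : M2 R).trace) hc
    simp only [Units.val_mul] at this
    rw [trace_mul_comm, ← Matrix.mul_assoc, Units.mul_inv, Matrix.one_mul] at this
    exact this.symm
  have t2 : (ρ φ').det = (ρ φ).det := by
    have := congrArg (fun z : GL (Fin 2) R => (z : M2 R).det) hc
    simp only [Units.val_mul] at this
    rw [det_mul, det_mul, mul_right_comm, ← det_mul, Units.inv_mul, det_one, one_mul] at this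
    exact this.symm
  obtain ⟨s, b, e⟩ := pow_lin (ρ (σ i * u i)) m
  have hs : IsUnit s := by
    by_contra hs
    have h1 : lb s = 0 := (hL.ker s).2 ((mem_maximalIdeal s).2 hs)
    have h3 : mx ρb ((σ i * u i) ^ m) = lb b • (1 : M2 F) := by
      rw [hL.lift, map_pow, e]
      ext a a'
      fin_cases a <;> fin_cases a' <;> simp [h1]
    rw [← Good.sc_mul (hU1 _ a5.1.1), mul_inv_cancel_left] at a6
    refine a6 ⟨?_, ?_, ?_⟩ <;> rw [h3] <;> simp
  have d1 := Good.disc_sub r' (maximalIdeal R ^ n) φ a5.2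
  rw [mul_inv_cancel_left, show ((r' ((σ i * u i) ^ m) : GL (Fin 2) R) : M2 R) =
    ρ ((σ i * u i) ^ m) from rfl, map_pow, e, Good.disc_lin] at d1
  have d2 := Good.Dq_sub r' (maximalIdeal R ^ n) (q := q i) (by
    obtain ⟨k, hk⟩ := c1
    have : ((q i : ℕ) : R) - 1 = 2 ^ n * k := by
      rw [← Nat.cast_pred a1.pos, hk]; push_cast; rfl
    rw [this]
    refine Ideal.mul_mem_right _ _ (Ideal.pow_mem_pow ((hL.ker 2).1 ?_) n)
    rw [map_ofNat]
    exact CharTwo.two_eq_zero) φ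
  refine ⟨(hs.pow 2).unit, ?_⟩
  have := Ideal.sub_mem _ d2 d1
  rw [t1, t2, IsUnit.unit_spec]
  rwa [sub_sub_sub_cancel_right] at this

end Vale.Agent.P022D.Twq
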