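import Vale.Agent.P022D.Good.Cliff
import Vale.Agent.P022D.Twq.Defs

/-!
P022D, block Twq: the Clifford step in the form of the block.
-/

set_option linter.all false

noncomputable section

namespace Vale.Agent.P022D.Twq

open Vale.Agent.P022 Vale.Agent.P022D.Sel
open Vale.Agent.P027M.S (mx)

theorem clf : CLF := by
  intro F B _ _ _ _ _ _ _ _ lb ρ ρb H U σ hD _ hr _ hU hn hI hσ h0 g hg
  have e : ∀ g i j, lb (ρ g i j) = mx ρb g i j := fun g i j => by rw [hr]; rfl
  obtain ⟨h, h1, h2, h3⟩ := Good.exists_h hD hI hσ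
  have D : Good.Dat ρ lb H Ginf h :=
    ⟨fun g hg => by rw [e, e]; exact hD.dg g hg, fun g hg => by rw [e, e]; exact hD.ad g hg,
      Good.ginf_normal, Good.dh_normal hD, h1, h2, by rw [e, e]; exact h3⟩
  let Ω := AlgebraicClosure (FractionRing B)
  let φ : B →+* Ω := (algebraMap (FractionRing B) Ω).comp (algebraMap B (FractionRing B))
  have hφ : Function.Injective φ :=
    (algebraMap (FractionRing B) Ω).injective.comp (IsFractionRing.injective B _)
  have : CharP Ω 2 := charP_of_injective_ringHom hφ 2
  refine hφ ((D.cliff φ (fun x hx => by rw [hφ (hx.trans (map_zero φ).symm), map_zero]) hn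
    (Good.pow_mem_open hU hn) hI hσ (fun u hu hu' => by rw [h0 u hu hu', map_zero]) hg).trans
      (map_zero φ).symm)

end Vale.Agent.P022D.Twq
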