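import Vale.Agent.P022D.Twq.Main

/-!
# P022, dihedral case, block Twq: the choice of the auxiliary primes
-/

set_option linter.all false

noncomputable section

namespace Vale.Agent.P022D.Twq

open NumberField IsLocalRing Matrix
open Vale.Agent.P022 Vale.Agent.P022D.Sel
open Vale.Agent.P027M.S (Inert mx)

/-- **The output of the block**: the number of primes depends only on the residual data. -/
def TWQ2 : Prop := ∀ (F : Type) [Field F] [Finite F] [CharP F 2] (ρb : GQ →* GL (Fin 2) F)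
  (H : Subgroup GQ) (T : Finset ℕ) (D : ℕ → Set GQ), Dh ρb H → 0 ∈ T → 2 ∈ T →
  (∀ l ∈ T, IsDec l (D l)) → ∃ r : ℕ, Tan ρb T ∅ D (2 * r + 5) ∧
  ∀ (O R : Type) [CommRing O] [IsDomain O] [CharZero O] [CommRing R] [Algebra O R] [IsLocalRing R]
    [IsNoetherianRing R] [IsAdicComplete (maximalIdeal R) R] (red : O →+* F) (lb : R →+* F)
    (x : R →+* O) (ρ : GQ →* M2 R) (Ps : Set (Ideal R)), Lv red lb x ρ ρb T → Ps.Finite →
    (∀ p ∈ Ps, BigP red ρ p) →
    ∃ δ : Fin r → R, (∀ i, x (δ i) ≠ 0 ∧ ∀ p ∈ Ps, δ i ∉ p) ∧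
      ∀ (n : ℕ) (A : Finset ℕ), ∃ q : Fin r → ℕ, Function.Injective q ∧
        Tan ρb T (Finset.univ.image q) D (2 * r + 5) ∧
        ∀ i, q i ∉ A ∧ q i ∉ T ∧ Good ρ ρb n (δ i) (q i)

open Mn in
/-- **the auxiliary primes** -/
theorem twq2 : TWQ2 := by
  intro F _ _ _ ρb H T D hD h0 h2 hdec
  classical
  obtain ⟨r, σ, U, A0, hU, hn, hU1, hTA, hσ, hsel⟩ := selC F ρb H T D hD h0 h2 hdec
  refine ⟨r, ?_, fun O R _ _ _ _ _ _ _ _ red lb x ρ Ps hL hfin hP => ?_⟩
  · obtain ⟨q, hq, hA⟩ := inj (fun i q => Aux ρb U A0 (σ i) q) fun i B => by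
      obtain ⟨q, a1, a2, a3⟩ := auxC F ρb H hD U (A0 ∪ B) (σ i) hU (hσ i).2
      exact ⟨q, fun h => a2 (Finset.mem_union_right _ h), a1,
        fun h => a2 (Finset.mem_union_left _ h), a3⟩
    exact fun Z hZ => hsel q hq hA Z fun z hz => ⟨(hZ z hz).coc, (hZ z hz).opn,
      fun l hl h1 _ => (hZ z hz).unr l hl h1 (Finset.notMem_empty l), (hZ z hz).loc, (hZ z hz).zero⟩
  let r' : GQ →* GL (Fin 2) R := ρ.toHomUnits
  have hr : ∀ g, mx ρb g = (r' g : M2 R).map lb := hL.lift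
  have hc : Good.Cont r' (maximalIdeal R) := hL.cont
  have hav := fun i => Good.avoid lb r' hD hr _ hc (insert (RingHom.ker x) hfin.toFinset)
    (fun p hp => by
      rcases Finset.mem_insert.1 hp with rfl | hp
      · refine ⟨RingHom.ker_isPrime x, fun z hz => ?_, fun h => ?_⟩
        · rw [← hL.comp, RingHom.mem_ker.1 hz, map_zero]
        · rw [RingHom.mem_ker, map_ofNat] at h
          exact absurd h two_ne_zero
      · have hp := hP p (hfin.mem_toFinset.1 hp)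
        exact ⟨hp.prime, fun z hz => (hL.ker z).2 (le_maximalIdeal hp.prime.ne_top hz),
          fun _ => Dh.ndh F O R red lb x ρ ρb H T p hD hL hp⟩)
    (fun p _ => Good.closed_of_noeth p) hU hn hU1 (hσ i).1 (hσ i).2
  choose u hu hu' hδ using hav
  refine ⟨fun i => Good.disc (ρ (σ i * u i)), fun i => ⟨hδ i _ (Finset.mem_insert_self _ _),
    fun p hp => hδ i p (Finset.mem_insert_of_mem (hfin.mem_toFinset.2 hp))⟩, fun n A => ?_⟩
  obtain ⟨V, hV, hcong⟩ := cong n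
  obtain ⟨q, hq, hA⟩ := inj (fun i q => Aux ρb (U ⊓ V ⊓ Good.Kc r' (maximalIdeal R ^ n)) (A ∪ A0)
    (σ i * u i) q) fun i B => by
      obtain ⟨q, a1, a2, a3⟩ := auxC F ρb H hD (U ⊓ V ⊓ Good.Kc r' (maximalIdeal R ^ n))
        (A ∪ A0 ∪ B) (σ i * u i) ((hU.inter hV).inter (hc.isOpen n))
        (by rw [Good.sc_mul (hU1 _ (hu i))]; exact (hσ i).2)
      exact ⟨q, fun h => a2 (Finset.mem_union_right _ h), a1,
        fun h => a2 (Finset.mem_union_left _ h), a3⟩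
  refine ⟨q, hq, hsel q hq fun i => ?_, fun i => ?_⟩
  · obtain ⟨a1, a2, φ, m, a3, a4, a5, a6⟩ := hA i
    refine ⟨a1, fun h => a2 (Finset.mem_union_right _ h), φ, m, a3, a4, ?_, a6⟩
    have e1 : (QuotientGroup.mk' U) (u i) = 1 := (QuotientGroup.eq_one_iff _).2 (hu i)
    have e2 := (QuotientGroup.eq_one_iff (N := U) _).2 a5.1.1
    rw [← QuotientGroup.eq_one_iff]
    change QuotientGroup.mk' U _ = 1 at e2 ⊢
    rwa [map_mul, map_pow, map_mul, e1, mul_one, ← map_pow, ← map_mul] at e2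
  obtain ⟨a1, a2, φ, m, a3, a4, a5, a6⟩ := hA i
  have hT : q i ∉ T := fun h => a2 (Finset.mem_union_right _ (hTA h))
  obtain ⟨c1, c2⟩ := hcong (q i) m _ φ a1 (fun h => hT (h ▸ h2))
    (Ginf.mul_mem (hσ i).1 (hu' i)) a3 a5.1.2
  have cj : ∀ φ', IsFrob (q i) φ' → ∃ c : GQ, r' φ = (r' c)⁻¹ * r' φ' * r' c := fun φ' h => by
    obtain ⟨c, hc⟩ := H20.frob_conj r' a1 (fun P hP hl g hg =>
      Units.ext (hL.unr _ a1 hT P hP hl g hg)) h a3
    exact ⟨c⁻¹, by rw [hc, map_inv, inv_inv]⟩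
  have rb : ∀ g, ρb g = Units.map (lb.mapMatrix (m := Fin 2)).toMonoidHom (r' g) := fun g =>
    Units.ext (hr g)
  refine ⟨fun h => a2 (Finset.mem_union_left _ h), hT, a1, c1, c2, fun φ' h hs => ?_,
    fun φ' h => ?_⟩
  · obtain ⟨c, hc⟩ := cj φ' h
    exact a6 (sc_conj (c := c) (by rw [rb, rb, rb, hc, map_mul, map_mul, map_inv]) hs)
  obtain ⟨c, hc⟩ := cj φ' h
  have t1 : (ρ φ').trace = (ρ φ).trace := by
    have := congrArg (fun z : GL (Fin 2) R => (z : M2 R).trace) hc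
    simp only [Units.val_mul] at this
    rw [trace_mul_comm, ← Matrix.mul_assoc, Units.mul_inv, Matrix.one_mul] at this
    exact this.symm
  have t2 : (ρ φ').det = (ρ φ).det := by
    have := congrArg (fun z : GL (Fin 2) R => (z : M2 R).det) hc
    simp only [Units.val_mul] at this
    rw [det_mul, det_mul, mul_right_comm, ← det_mul, Units.inv_mul, det_one, one_mul] at this
    exact this.symm
  obtain ⟨s, b, e⟩ := pow_lin (ρ (σ i * u i)) m
  have hs : IsUnit s := by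
    by_contra hs
    have h1 : lb s = 0 := (hL.ker s).2 ((mem_maximalIdeal s).2 hs)
    have h3 : mx ρb ((σ i * u i) ^ m) = lb b • (1 : M2 F) := by
      rw [hL.lift, map_pow, e]
      ext a a'
      fin_cases a <;> fin_cases a' <;> simp [h1]
    rw [← Good.sc_mul (hU1 _ a5.1.1), mul_inv_cancel_left] at a6
    refine a6 ⟨?_, ?_, ?_⟩ <;> rw [h3] <;> simp
  have d1 := Good.disc_sub r' (maximalIdeal R ^ n) φ a5.2
  rw [mul_inv_cancel_left, show ((r' ((σ i * u i) ^ m) : GL (Fin 2) R) : M2 R) =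
    ρ ((σ i * u i) ^ m) from rfl, map_pow, e, Good.disc_lin] at d1
  have d2 := Good.Dq_sub r' (maximalIdeal R ^ n) (q := q i) (by
    obtain ⟨k, hk⟩ := c1
    have : ((q i : ℕ) : R) - 1 = 2 ^ n * k := by
      rw [← Nat.cast_pred a1.pos, hk]; push_cast; rfl
    rw [this]
    refine Ideal.mul_mem_right _ _ (Ideal.pow_mem_pow ((hL.ker 2).1 ?_) n)
    rw [map_ofNat]
    exact CharTwo.two_eq_zero) φ
  refine ⟨(hs.pow 2).unit, ?_⟩
  have := Ideal.sub_mem _ d2 d1
  rw [t1, t2, IsUnit.unit_spec]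
  rwa [sub_sub_sub_cancel_right] at this

end Vale.Agent.P022D.Twq
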